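import Vale.Agent.P361.Main

open Filter Topology Vale.Agent.P361

theorem Vale.Agent.Results.P361.Bloch.result (s : ℕ) (hs : 1 ≤ s) :
    ((∀ a, (spin s a).IsHermitian) ∧
      spin s 0 * spin s 1 - spin s 1 * spin s 0 = Complex.I • spin s 2 ∧
      spin s 1 * spin s 2 - spin s 2 * spin s 1 = Complex.I • spin s 0 ∧
      spin s 2 * spin s 0 - spin s 0 * spin s 2 = Complex.I • spin s 1 ∧
      ∑ a, spin s a * spin s a =
        ((s : ℂ) / 2 * ((s : ℂ) / 2 + 1)) • (1 : Matrix (Fin (s + 1)) (Fin (s + 1)) ℂ)) ∧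
    ∃ (p : ℝ → ℝ → ℝ) (m : ℝ → ℝ),
      (∀ β : ℝ, 0 < β → ∀ h : ℝ, Tendsto (fun N : ℕ => pressure s N β h) atTop (𝓝 (p β h))) ∧
      (∀ β : ℝ, 0 < β → HasDerivWithinAt (p β) (m β) (Set.Ici 0) 0) ∧
      Tendsto (fun β : ℝ => β ^ (3 / 2 : ℝ) * ((s : ℝ) / 2 - m β)) atTop
        (𝓝 ((riemannZeta (3 / 2)).re /
          (8 * Real.pi ^ (3 / 2 : ℝ) * ((s : ℝ) / 2) ^ (3 / 2 : ℝ)))) :=
  ⟨spin_rel s, bloch_main s hs⟩
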